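import Vale.Agent.P239.Bdl.B11
import Mathlib.Data.Set.Finite.List

set_option linter.unusedSectionVars false

/-!
P239: literal type `FP_3` (a partial resolution by finitely generated free modules) implies coarse
acyclicity of the group in the degrees 1, 2, 3.
-/

namespace Vale.Agent.P239.M.FP

open Vale.Agent.P239.M

section Act

variable {k Γ : Type*} [CommRing k] [Group Γ]

/-- left translation of chains -/
noncomputable def act (g : Γ) : Ch k Γ →ₗ[k] Ch k Γ := pf (g * ·)

theorem act_single (g : Γ) (l : List Γ) (r : k) :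
    act g (Finsupp.single l r) = Finsupp.single (l.map (g * ·)) r := pf_single _ _ _

theorem map_mul_map (g h : Γ) (l : List Γ) :
    (l.map (h * ·)).map (g * ·) = l.map (g * h * ·) := by
  rw [List.map_map]
  exact List.map_congr_left fun x _ => by simp [mul_assoc]

theorem map_one_map (l : List Γ) : l.map ((1 : Γ) * ·) = l := by
  simp

theorem act_one (c : Ch k Γ) : act (1 : Γ) c = c := by
  induction c using Finsupp.induction_linear with
  | zero => simp
  | add a b ha hb => rw [map_add, ha, hb]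
  | single l r => rw [act_single, map_one_map]

theorem act_mul (g h : Γ) (c : Ch k Γ) : act (g * h) c = act g (act h c) := by
  induction c using Finsupp.induction_linear with
  | zero => simp
  | add a b ha hb => rw [map_add, ha, hb, map_add, map_add]
  | single l r => rw [act_single, act_single, act_single, map_mul_map]

/-- left translation as a representation -/
noncomputable def rho (k Γ : Type*) [CommRing k] [Group Γ] : Γ →* Module.End k (Ch k Γ) where
  toFun := act
  map_one' := LinearMap.ext act_one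
  map_mul' g h := LinearMap.ext (act_mul g h)

theorem rho_apply (g : Γ) (c : Ch k Γ) : rho k Γ g c = act g c := rfl

theorem bd_act (g : Γ) (c : Ch k Γ) : bd (act g c) = act g (bd c) := bd_pf _ _

theorem sup_act_len {m : ℕ} {c : Ch k Γ} (g : Γ) (hc : Sup (fun l => l.length = m) c) :
    Sup (fun l => l.length = m) (act g c) :=
  Sup.pf _ (hc.mono fun l hl => by simpa using hl)

theorem smG_map (g : Γ) {S : Finset Γ} {l : List Γ} (h : SmG S l) : SmG S (l.map (g * ·)) := by
  intro x' hx' y' hy'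
  obtain ⟨x, hx, rfl⟩ := List.mem_map.1 hx'
  obtain ⟨y, hy, rfl⟩ := List.mem_map.1 hy'
  have : (g * x)⁻¹ * (g * y) = x⁻¹ * y := by group
  rw [this]
  exact h x hx y hy

theorem sup_act_smG {S : Finset Γ} {c : Ch k Γ} (g : Γ) (hc : Sup (SmG S) c) :
    Sup (SmG S) (act g c) :=
  Sup.pf _ (hc.mono fun _ hl => smG_map g hl)

theorem sup_smul {P : List Γ → Prop} {c : Ch k Γ} (r : k) (hc : Sup P c) : Sup P (r • c) :=
  fun l hl => hc l (Finsupp.support_smul hl)

theorem sup_and {P Q : List Γ → Prop} {c : Ch k Γ} (h : Sup P c) (h' : Sup Q c) :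
    Sup (fun l => P l ∧ Q l) c := fun l hl => ⟨h l hl, h' l hl⟩

theorem ext_eq {V : Type*} [AddCommGroup V] [Module k V] (φ : Ch k Γ →ₗ[k] V) (c : Ch k Γ) :
    φ c = ext (fun l => φ (Finsupp.single l 1)) c := by
  induction c using Finsupp.induction_linear with
  | zero => simp
  | add a b ha hb => rw [map_add, map_add, ha, hb]
  | single l r =>
    rw [ext, Finsupp.linearCombination_single, ← map_smul, Finsupp.smul_single, smul_eq_mul,
      mul_one]

/-- equivariant linear maps out of the chains with prescribed properties on lists -/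
theorem exists_equivariant {V : Type*} [AddCommGroup V] [Module k V] (σ : Γ →* Module.End k V)
    (m : ℕ) (P : List Γ → V → Prop) (hP : ∀ g l v, P l v → P (l.map (g * ·)) (σ g v))
    (hex : ∀ l : List Γ, l.length = m + 1 → ∃ v, P l v) :
    ∃ φ : Ch k Γ →ₗ[k] V, (∀ g c, φ (act g c) = σ g (φ c)) ∧
      ∀ l : List Γ, l.length = m + 1 → P l (φ (Finsupp.single l 1)) := by
  choose! v₀ hv₀ using hex
  let u : List Γ → V := fun l => match l with
    | [] => 0
    | x :: t => σ x (v₀ ((x :: t).map (x⁻¹ * ·)))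
  have hu0 : u [] = 0 := rfl
  have hu : ∀ x t, u (x :: t) = σ x (v₀ ((x :: t).map (x⁻¹ * ·))) := fun _ _ => rfl
  have hug : ∀ (g : Γ) (l : List Γ), u (l.map (g * ·)) = σ g (u l) := by
    intro g l
    match l with
    | [] => rw [List.map_nil, hu0, map_zero]
    | x :: t =>
      rw [List.map_cons, hu, hu, ← List.map_cons (f := (g * ·)), map_mul_map, map_mul,
        Module.End.mul_apply]
      have : (g * x)⁻¹ * g = x⁻¹ := by group
      rw [this]
  have hs : ∀ (l : List Γ) (r : k), ext u (Finsupp.single l r) = r • u l := fun l r =>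
    Finsupp.linearCombination_single _ _ _
  refine ⟨ext u, ?_, ?_⟩
  · intro g c
    induction c using Finsupp.induction_linear with
    | zero => simp
    | add a b ha hb => rw [map_add, map_add, ha, hb, map_add, map_add]
    | single l r => rw [act_single, hs, hs, hug, map_smul]
  · intro l hl
    rw [hs, one_smul]
    match l with
    | [] => simp at hl
    | x :: t =>
      rw [hu]
      have h1 := hP x _ _ (hv₀ ((x :: t).map (x⁻¹ * ·)) (by simpa using hl))
      rwa [map_mul_map, mul_inv_cancel, map_one_map] at h1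

/-- all differences occurring in a chain -/
noncomputable def dif [DecidableEq Γ] (c : Ch k Γ) : Finset Γ :=
  c.support.biUnion fun l => (l.toFinset ×ˢ l.toFinset).image fun p => p.1⁻¹ * p.2

theorem sup_dif [DecidableEq Γ] (c : Ch k Γ) : Sup (SmG (dif c)) c := by
  intro l hl x hx y hy
  refine Finset.mem_biUnion.2 ⟨l, hl, Finset.mem_image.2 ⟨(x, y), ?_, rfl⟩⟩
  simp [hx, hy]

theorem smG_mono {S R : Finset Γ} (h : S ⊆ R) {l : List Γ} (hl : SmG S l) : SmG R l :=
  fun x hx y hy => h (hl x hx y hy)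

theorem finite_lists (S : Finset Γ) (m : ℕ) :
    {l : List Γ | l.length = m ∧ ∀ x ∈ l, x ∈ S}.Finite := by
  have h := (List.finite_length_eq S m).image (List.map Subtype.val)
  refine h.subset ?_
  rintro l ⟨hl, hS⟩
  exact ⟨l.attach.map fun x => ⟨x.1, hS x.1 x.2⟩, by simpa using hl, by simp⟩

/-- equivariant maps distort lengths in a controlled way -/
theorem bounded (φ : Ch k Γ →ₗ[k] Ch k Γ) (hφ : ∀ g c, φ (act g c) = act g (φ c)) (m : ℕ)
    (S : Finset Γ) : ∃ R : Finset Γ, S ⊆ R ∧ ∀ c : Ch k Γ,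
      Sup (fun l => l.length = m ∧ SmG S l) c → Sup (SmG R) (φ c) := by
  classical
  let D : Finset Γ := (finite_lists S m).toFinset.biUnion fun l => dif (φ (Finsupp.single l 1))
  refine ⟨S ∪ D, Finset.subset_union_left, fun c hc => ?_⟩
  have key : ∀ l : List Γ, l.length = m → (∀ x ∈ l, x ∈ S) →
      Sup (SmG (S ∪ D)) (φ (Finsupp.single l 1)) := by
    intro l hl hS
    refine (sup_dif _).mono fun l' hl' => smG_mono ?_ hl'
    refine (Finset.subset_biUnion_of_mem (fun l => dif (φ (Finsupp.single l (1 : k)))) ?_).trans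
      Finset.subset_union_right
    simpa using ⟨hl, hS⟩
  rw [ext_eq φ c]
  refine hc.ext fun l hl => ?_
  match l with
  | [] => exact key [] hl.1 (by simp)
  | x :: t =>
    have h1 : act x (Finsupp.single ((x :: t).map (x⁻¹ * ·)) (1 : k)) =
        Finsupp.single (x :: t) 1 := by
      rw [act_single, map_mul_map, mul_inv_cancel, map_one_map]
    rw [← h1, hφ]
    refine sup_act_smG x (key _ (by simpa using hl.1) ?_)
    intro y hy
    obtain ⟨z, hz, rfl⟩ := List.mem_map.1 hy
    exact hl.2 x (by simp) z hz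

end Act

section Free

variable {k Γ : Type*} [CommRing k] [Group Γ] {a : ℕ}

/-- the element `g` of the group ring -/
noncomputable abbrev gr (k : Type*) {Γ : Type*} [CommRing k] [Group Γ] (g : Γ) :
    MonoidAlgebra k Γ := MonoidAlgebra.single g 1

theorem free_induction {motive : (Fin a → MonoidAlgebra k Γ) → Prop} (h0 : motive 0)
    (hadd : ∀ v w, motive v → motive w → motive (v + w))
    (hsmul : ∀ (r : k) v, motive v → motive (r • v))
    (hact : ∀ (g : Γ) v, motive v → motive (gr k g • v))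
    (hb : ∀ i, motive (Pi.single i 1)) : ∀ v, motive v := by
  have h1 : ∀ (x : MonoidAlgebra k Γ) i, motive (x • Pi.single i 1) := by
    intro x i
    induction x using MonoidAlgebra.induction_linear with
    | zero => rwa [zero_smul]
    | add x y hx hy => rw [add_smul]; exact hadd _ _ hx hy
    | single g r =>
      have : (MonoidAlgebra.single g r : MonoidAlgebra k Γ) = r • gr k g := by
        rw [gr, MonoidAlgebra.smul_single, smul_eq_mul, mul_one]
      rw [this, smul_assoc]
      exact hsmul _ _ (hact _ _ (hb i))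
  intro v
  have h2 : v = ∑ i, v i • (Pi.single i 1 : Fin a → MonoidAlgebra k Γ) := by
    funext j
    simp [Finset.sum_apply, Pi.single_apply]
  rw [h2]
  exact Finset.sum_induction _ motive hadd h0 fun i _ => h1 _ i

/-- the action on a free module as a representation -/
noncomputable def rhoF (k Γ : Type*) [CommRing k] [Group Γ] (a : ℕ) :
    Γ →* Module.End k (Fin a → MonoidAlgebra k Γ) where
  toFun g :=
    { toFun := fun v => gr k g • v
      map_add' := fun v w => smul_add _ _ _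
      map_smul' := fun r v => by
        funext i
        simp }
  map_one' := LinearMap.ext fun v => by
    change gr k (1 : Γ) • v = v
    rw [gr, ← MonoidAlgebra.one_def, one_smul]
  map_mul' g h := by
    refine LinearMap.ext fun v => ?_
    change gr k (g * h) • v = gr k g • gr k h • v
    rw [smul_smul, gr, gr, gr, MonoidAlgebra.single_mul_single, mul_one]

theorem rhoF_apply (g : Γ) (v : Fin a → MonoidAlgebra k Γ) : rhoF k Γ a g v = gr k g • v := rfl

theorem exists_free {V : Type*} [AddCommGroup V] [Module k V] (σ : Γ →* Module.End k V)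
    (c : Fin a → V) : ∃ f : (Fin a → MonoidAlgebra k Γ) →ₗ[k] V,
      (∀ g v, f (rhoF k Γ a g v) = σ g (f v)) ∧ ∀ i, f (Pi.single i 1) = c i := by
  classical
  let L : MonoidAlgebra k Γ →ₐ[k] Module.End k V := MonoidAlgebra.lift k (Module.End k V) Γ σ
  let f : (Fin a → MonoidAlgebra k Γ) →ₗ[k] V :=
    { toFun := fun v => ∑ i, L (v i) (c i)
      map_add' := fun v w => by
        simp only [Pi.add_apply, map_add, LinearMap.add_apply, Finset.sum_add_distrib]
      map_smul' := fun r v => by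
        simp only [Pi.smul_apply, map_smul, LinearMap.smul_apply, Finset.smul_sum, RingHom.id_apply] }
  have hf : ∀ v, f v = ∑ i, L (v i) (c i) := fun _ => rfl
  refine ⟨f, ?_, ?_⟩
  · intro g v
    rw [hf, hf, map_sum]
    refine Finset.sum_congr rfl fun i _ => ?_
    rw [rhoF_apply, Pi.smul_apply, smul_eq_mul, map_mul, Module.End.mul_apply]
    congr 1
    simp [L, gr]
  · intro i
    rw [hf, Finset.sum_eq_single i]
    · simp
    · intro j _ hj
      rw [Pi.single_eq_of_ne hj, map_zero, LinearMap.zero_apply]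
    · simp

end Free

section Level

variable {k Γ : Type*} [CommRing k] [Group Γ]

/-- Comparison of a resolution with the chains, in one degree: `P` is the module of the resolution
(with the action `σ`), `Z` the set of its cycles, `m` the length of the lists. -/
def Lv (m : ℕ) {P : Type*} [AddCommGroup P] [Module k P] (σ : Γ →* Module.End k P)
    (Z : P → Prop) (α : P →ₗ[k] Ch k Γ) : Prop :=
  ∃ (β : Ch k Γ →ₗ[k] P) (h : Ch k Γ →ₗ[k] Ch k Γ),
    (∀ g p, α (σ g p) = act g (α p)) ∧ (∀ g c, β (act g c) = σ g (β c)) ∧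
    (∀ g c, h (act g c) = act g (h c)) ∧
    (∀ p, Sup (fun l => l.length = m) (α p)) ∧
    (∀ c, Sup (fun l => l.length = m) c → Sup (fun l => l.length = m + 1) (h c)) ∧
    (∀ p, Z p → bd (α p) = 0) ∧
    (∀ c, Sup (fun l => l.length = m) c → bd c = 0 → Z (β c)) ∧
    ∀ c, Sup (fun l => l.length = m) c → bd c = 0 → bd (h c) = c - α (β c)

/-- the bottom: lists of length 0 -/
theorem lv_zero : Lv (Γ := Γ) 0 (1 : Γ →* Module.End k k) (fun _ => True)
    (Finsupp.lsingle ([] : List Γ)) := by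
  refine ⟨Finsupp.lapply [], 0, ?_, ?_, ?_, ?_, ?_, ?_, ?_, ?_⟩
  · intro g p
    rw [MonoidHom.one_apply, Module.End.one_apply, Finsupp.lsingle_apply, act_single, List.map_nil]
  · intro g c
    rw [MonoidHom.one_apply, Module.End.one_apply]
    induction c using Finsupp.induction_linear with
    | zero => simp
    | add a b ha hb => rw [map_add, map_add, map_add, ha, hb]
    | single l r =>
      rw [act_single, Finsupp.lapply_apply, Finsupp.lapply_apply]
      match l with
      | [] => rfl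
      | x :: t => rw [Finsupp.single_eq_of_ne (by simp), Finsupp.single_eq_of_ne (by simp)]
  · intro g c
    simp
  · intro p
    exact Sup.single p rfl
  · intro c _
    exact Sup.zero
  · intro p _
    rw [Finsupp.lsingle_apply, bd_single, bdL, smul_zero]
  · intro _ _ _
    trivial
  · intro c hc _
    rw [LinearMap.zero_apply, map_zero, Finsupp.lsingle_apply, Finsupp.lapply_apply, eq_comm,
      sub_eq_zero]
    ext l
    by_cases hl : l = []
    · rw [hl, Finsupp.single_eq_same]
    · rw [Finsupp.single_eq_of_ne hl]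
      by_contra h0
      exact hl (List.length_eq_zero_iff.1 (hc l (Finsupp.mem_support_iff.2 h0)))

theorem exists_fill {m : ℕ} {c : Ch k Γ} (hc : Sup (fun l => l.length = m) c) (h0 : bd c = 0) :
    ∃ e : Ch k Γ, bd e = c ∧ Sup (fun l => l.length = m + 1) e :=
  ⟨cone 1 c, by rw [bd_cone, h0, map_zero, sub_zero],
    Sup.cone 1 (hc.mono fun l hl => by simp [hl])⟩

theorem sup_bd_len {m : ℕ} {c : Ch k Γ} (hc : Sup (fun l => l.length = m + 1) c) :
    Sup (fun l => l.length = m) (bd c) :=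
  hc.bd fun l l' _ h1 h2 => by omega

theorem sup_of_free {a : ℕ} {Q : List Γ → Prop} (α : (Fin a → MonoidAlgebra k Γ) →ₗ[k] Ch k Γ)
    (hα : ∀ g v, α (rhoF k Γ a g v) = act g (α v)) (hQ : ∀ (g : Γ) l, Q l → Q (l.map (g * ·)))
    (hb : ∀ i, Sup Q (α (Pi.single i 1))) (v : Fin a → MonoidAlgebra k Γ) : Sup Q (α v) := by
  refine free_induction (motive := fun v => Sup Q (α v)) ?_ ?_ ?_ ?_ hb v
  · rw [map_zero]; exact Sup.zero
  · intro v w hv hw
    rw [map_add]; exact hv.add hw
  · intro r v hv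
    rw [map_smul]; exact sup_smul r hv
  · intro g v hv
    rw [← rhoF_apply, hα]
    exact Sup.pf _ (hv.mono fun l hl => hQ g l hl)

/-- the next chain map -/
theorem exists_alpha {m : ℕ} {P : Type*} [AddCommGroup P] [Module k P]
    {σ : Γ →* Module.End k P} {Z : P → Prop} {α : P →ₗ[k] Ch k Γ} (H : Lv m σ Z α) {a : ℕ}
    (d : (Fin a → MonoidAlgebra k Γ) →ₗ[k] P) (hd : ∀ g v, d (rhoF k Γ a g v) = σ g (d v))
    (hZ : ∀ v, Z (d v)) :
    ∃ α' : (Fin a → MonoidAlgebra k Γ) →ₗ[k] Ch k Γ,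
      (∀ g v, α' (rhoF k Γ a g v) = act g (α' v)) ∧
      (∀ v, Sup (fun l => l.length = m + 1) (α' v)) ∧ ∀ v, bd (α' v) = α (d v) := by
  obtain ⟨β, h, h1, h2, h3, h4, h5, h6, h7, h8⟩ := H
  choose c hc1 hc2 using fun i : Fin a => exists_fill (h4 (d (Pi.single i 1)))
    (h6 _ (hZ (Pi.single i 1)))
  obtain ⟨α', ha1, ha2⟩ := exists_free (rho k Γ) c
  have ha1' : ∀ g v, α' (rhoF k Γ a g v) = act g (α' v) := ha1
  refine ⟨α', ha1', fun v => sup_of_free α' ha1' (fun g l hl => by simpa using hl)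
    (fun i => by rw [ha2]; exact hc2 i) v, fun v => ?_⟩
  refine free_induction (motive := fun v => bd (α' v) = α (d v)) ?_ ?_ ?_ ?_ ?_ v
  · simp
  · intro v w hv hw
    rw [map_add, map_add, map_add, map_add, hv, hw]
  · intro r v hv
    rw [map_smul, map_smul, map_smul, map_smul, hv]
  · intro g v hv
    rw [← rhoF_apply, ha1', bd_act, hv, hd, h1]
  · intro i
    rw [ha2, hc1]

/-- one step of the comparison -/
theorem lv_succ {m : ℕ} {P : Type*} [AddCommGroup P] [Module k P]
    {σ : Γ →* Module.End k P} {Z : P → Prop} {α : P →ₗ[k] Ch k Γ} (H : Lv m σ Z α) {a : ℕ}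
    (d : (Fin a → MonoidAlgebra k Γ) →ₗ[k] P) (hd : ∀ g v, d (rhoF k Γ a g v) = σ g (d v))
    (hZ : ∀ p, Z p ↔ ∃ v, d v = p) :
    ∃ α' : (Fin a → MonoidAlgebra k Γ) →ₗ[k] Ch k Γ,
      Lv (m + 1) (rhoF k Γ a) (fun v => d v = 0) α' := by
  obtain ⟨α', ha1, ha2, ha3⟩ := exists_alpha H d hd fun v => (hZ _).2 ⟨v, rfl⟩
  obtain ⟨β, h, h1, h2, h3, h4, h5, h6, h7, h8⟩ := H
  have hlen : ∀ l : List Γ, l.length = m + 1 →
      Sup (fun l => l.length = m) (bd (Finsupp.single l (1 : k))) := fun l hl =>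
    sup_bd_len (Sup.single 1 hl)
  -- the map back
  obtain ⟨β', hb1, hb2⟩ := exists_equivariant (rhoF k Γ a) m
    (fun l v => d v = β (bd (Finsupp.single l 1)))
    (by
      intro g l v hv
      rw [hd, hv, ← h2, ← bd_act, act_single])
    (fun l hl => (hZ _).1 (h7 _ (hlen l hl) (bd_bd _)))
  have hb3 : ∀ c, Sup (fun l => l.length = m + 1) c → d (β' c) = β (bd c) := by
    intro c hc
    have e1 : d (β' c) = ext (fun l => d (β' (Finsupp.single l 1))) c := ext_eq (d ∘ₗ β') c
    have e2 : β (bd c) = ext (fun l => β (bd (Finsupp.single l 1))) c := ext_eq (β ∘ₗ bd) c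
    rw [e1, e2]
    exact ext_congr hc hb2
  -- the homotopy
  obtain ⟨h', hh1, hh2⟩ := exists_equivariant (rho k Γ) m
    (fun l e => bd e = Finsupp.single l 1 - α' (β' (Finsupp.single l 1)) -
      h (bd (Finsupp.single l 1)) ∧ Sup (fun l => l.length = m + 1 + 1) e)
    (by
      rintro g l e ⟨he1, he2⟩
      rw [rho_apply, bd_act, he1]
      refine ⟨?_, sup_act_len g he2⟩
      rw [map_sub, map_sub, act_single, ← ha1, ← hb1, act_single, ← h3, ← bd_act, act_single])
    (fun l hl => by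
      refine exists_fill ?_ ?_ |>.imp fun e he => he
      · exact ((Sup.single 1 hl).sub (ha2 _)).sub (h5 _ (hlen l hl))
      · rw [map_sub, map_sub, ha3, hb3 _ (Sup.single 1 hl), h8 _ (hlen l hl) (bd_bd _)]
        abel)
  refine ⟨α', β', h', ha1, hb1, hh1, ha2, ?_, ?_, ?_, ?_⟩
  · intro c hc
    rw [ext_eq h' c]
    exact hc.ext fun l hl => (hh2 l hl).2
  · intro v hv
    rw [ha3, hv, map_zero]
  · intro c hc h0
    change d (β' c) = 0
    rw [hb3 c hc, h0, map_zero]
  · intro c hc h0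
    have e1 : bd (h' c) = ext (fun l => bd (h' (Finsupp.single l 1))) c := ext_eq (bd ∘ₗ h') c
    have e2 : c - α' (β' c) - h (bd c) = ext (fun l => Finsupp.single l 1 -
        α' (β' (Finsupp.single l 1)) - h (bd (Finsupp.single l 1))) c :=
      ext_eq (LinearMap.id - α' ∘ₗ β' - h ∘ₗ bd) c
    rw [e1, ext_congr hc fun l hl => (hh2 l hl).1, ← e2, h0, map_zero, sub_zero]

/-- filling -/
theorem fill_of_lv {m : ℕ} {P : Type*} [AddCommGroup P] [Module k P]
    {σ : Γ →* Module.End k P} {Z : P → Prop} {α : P →ₗ[k] Ch k Γ} (H : Lv m σ Z α) {a : ℕ}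
    (d : (Fin a → MonoidAlgebra k Γ) →ₗ[k] P) (hd : ∀ g v, d (rhoF k Γ a g v) = σ g (d v))
    (hZ : ∀ p, Z p ↔ ∃ v, d v = p) : CFillS k Γ m := by
  classical
  obtain ⟨α', ha1, ha2, ha3⟩ := exists_alpha H d hd fun v => (hZ _).2 ⟨v, rfl⟩
  obtain ⟨β, h, h1, h2, h3, h4, h5, h6, h7, h8⟩ := H
  intro S
  obtain ⟨R, hSR, hR⟩ := bounded h h3 m S
  let T : Finset Γ := Finset.univ.biUnion fun i : Fin a => dif (α' (Pi.single i 1))
  have hT : ∀ v, Sup (SmG T) (α' v) := sup_of_free α' ha1 (fun g l hl => smG_map g hl) fun i =>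
    (sup_dif _).mono fun l hl => smG_mono (Finset.subset_biUnion_of_mem
      (fun i : Fin a => dif (α' (Pi.single i 1))) (Finset.mem_univ i)) hl
  refine ⟨R ∪ T, hSR.trans Finset.subset_union_left, fun z hz hs => ?_⟩
  have hlen : Sup (fun l => l.length = m) z := hs.mono fun l hl => hl.1
  obtain ⟨w, hw⟩ := (hZ _).1 (h7 z hlen hz)
  refine ⟨h z + α' w, ?_, ?_⟩
  · rw [map_add, h8 z hlen hz, ha3, hw]
    abel
  · exact (sup_and (h5 z hlen) ((hR z hs).mono fun l hl =>
      smG_mono Finset.subset_union_left hl)).add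
      (sup_and (ha2 w) ((hT w).mono fun l hl => smG_mono Finset.subset_union_right hl))

end Level

section Main

variable {k Γ : Type*} [CommRing k] [Group Γ]

/-- An `A`-linear map of free modules as an equivariant `k`-linear map. -/
theorem rhoF_map {a b : ℕ} (d : (Fin a → MonoidAlgebra k Γ) →ₗ[MonoidAlgebra k Γ]
    (Fin b → MonoidAlgebra k Γ)) (g : Γ) (v : Fin a → MonoidAlgebra k Γ) :
    d.restrictScalars k (rhoF k Γ a g v) = rhoF k Γ b g (d.restrictScalars k v) :=
  d.map_smul (gr k g) v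

/-- A partial resolution of the trivial module `k` by finitely generated free modules of length
three gives coarse acyclicity in the degrees 1, 2, 3. -/
theorem cfillS_of_resolution {a₀ a₁ a₂ a₃ : ℕ}
    (d₁ : (Fin a₁ → MonoidAlgebra k Γ) →ₗ[MonoidAlgebra k Γ] (Fin a₀ → MonoidAlgebra k Γ))
    (d₂ : (Fin a₂ → MonoidAlgebra k Γ) →ₗ[MonoidAlgebra k Γ] (Fin a₁ → MonoidAlgebra k Γ))
    (d₃ : (Fin a₃ → MonoidAlgebra k Γ) →ₗ[MonoidAlgebra k Γ] (Fin a₂ → MonoidAlgebra k Γ))
    (e : (Fin a₀ → MonoidAlgebra k Γ) →ₗ[k] k)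
    (he : ∀ (g : Γ) x, e ((MonoidAlgebra.single g 1 : MonoidAlgebra k Γ) • x) = e x)
    (h0 : Function.Surjective e) (h1 : ∀ x, e x = 0 ↔ ∃ y, d₁ y = x)
    (h2 : ∀ x, d₁ x = 0 ↔ ∃ y, d₂ y = x) (h3 : ∀ x, d₂ x = 0 ↔ ∃ y, d₃ y = x) :
    CFillS k Γ 1 ∧ CFillS k Γ 2 ∧ CFillS k Γ 3 := by
  obtain ⟨α₁, H1⟩ := lv_succ (lv_zero (k := k) (Γ := Γ)) e he fun p =>
    ⟨fun _ => h0 p, fun _ => trivial⟩
  obtain ⟨α₂, H2⟩ := lv_succ H1 (d₁.restrictScalars k) (rhoF_map d₁) h1
  obtain ⟨α₃, H3⟩ := lv_succ H2 (d₂.restrictScalars k) (rhoF_map d₂) h2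
  exact ⟨fill_of_lv H1 (d₁.restrictScalars k) (rhoF_map d₁) h1,
    fill_of_lv H2 (d₂.restrictScalars k) (rhoF_map d₂) h2,
    fill_of_lv H3 (d₃.restrictScalars k) (rhoF_map d₃) h3⟩

/-- The same over `𝔽₂`, with an additive augmentation. -/
theorem cfillS_of_FP3 {a₀ a₁ a₂ a₃ : ℕ}
    (d₁ : (Fin a₁ → MonoidAlgebra (ZMod 2) Γ) →ₗ[MonoidAlgebra (ZMod 2) Γ]
      (Fin a₀ → MonoidAlgebra (ZMod 2) Γ))
    (d₂ : (Fin a₂ → MonoidAlgebra (ZMod 2) Γ) →ₗ[MonoidAlgebra (ZMod 2) Γ]
      (Fin a₁ → MonoidAlgebra (ZMod 2) Γ))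
    (d₃ : (Fin a₃ → MonoidAlgebra (ZMod 2) Γ) →ₗ[MonoidAlgebra (ZMod 2) Γ]
      (Fin a₂ → MonoidAlgebra (ZMod 2) Γ))
    (e : (Fin a₀ → MonoidAlgebra (ZMod 2) Γ) →+ ZMod 2)
    (he : ∀ (g : Γ) x, e ((MonoidAlgebra.single g 1 : MonoidAlgebra (ZMod 2) Γ) • x) = e x)
    (h0 : Function.Surjective e) (h1 : ∀ x, e x = 0 ↔ ∃ y, d₁ y = x)
    (h2 : ∀ x, d₁ x = 0 ↔ ∃ y, d₂ y = x) (h3 : ∀ x, d₂ x = 0 ↔ ∃ y, d₃ y = x) :
    CFillS (ZMod 2) Γ 1 ∧ CFillS (ZMod 2) Γ 2 ∧ CFillS (ZMod 2) Γ 3 :=
  cfillS_of_resolution d₁ d₂ d₃ (e.toZModLinearMap 2) he h0 h1 h2 h3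

end Main

end Vale.Agent.P239.M.FP
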